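import Mathlib

/-!
# P217: an algebraically closed non-archimedean field containing a valued field
-/

noncomputable section

namespace Vale.Agent.P217.PointExists

open UniformSpace

/-- A valued field embeds isometrically into an algebraically closed non-archimedean field in
which every finite set lies in a complete subfield containing the image. -/
theorem exists_field {Q : Type} [Field Q] (v : AbsoluteValue Q ℝ) (hv : IsNonarchimedean v)
    (hq : ∃ q, 0 < v q ∧ v q < 1) :
    ∃ (Ω : Type) (_ : NormedField Ω) (_ : IsUltrametricDist Ω) (_ : IsAlgClosed Ω) (ι : Q →+* Ω),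
      (∀ q, ‖ι q‖ = v q) ∧ ∀ s : Finset Ω, ∃ L : Subfield Ω, IsComplete (L : Set Ω) ∧
        (∀ q, ι q ∈ L) ∧ ∀ y ∈ s, y ∈ L := by
  let C := v.Completion
  have hnorm : ∀ q : Q, ‖((WithAbs.toAbs v q : WithAbs v) : C)‖ = v q := fun q => by
    rw [Completion.norm_coe]; rfl
  have hultra : IsUltrametricDist C := by
    refine IsUltrametricDist.isUltrametricDist_of_isNonarchimedean_norm fun x y => ?_
    refine Completion.induction_on₂ x y ?_ fun a b => ?_
    · exact isClosed_le (by fun_prop) (by fun_prop)
    · rw [← Completion.coe_add, Completion.norm_coe, Completion.norm_coe, Completion.norm_coe]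
      exact hv a.ofAbs b.ofAbs
  obtain ⟨q, hq0, hq1⟩ := hq
  let : NontriviallyNormedField C :=
    NontriviallyNormedField.ofNormNeOne ⟨((WithAbs.toAbs v q : WithAbs v) : C), by
      rw [← norm_ne_zero_iff, hnorm]; exact hq0.ne', by rw [hnorm]; exact hq1.ne⟩
  let Ω := AlgebraicClosure C
  let nΩ : NormedField Ω := spectralNorm.normedField C Ω
  let : NormedAlgebra C Ω := spectralNorm.normedAlgebra C Ω
  have uΩ : IsUltrametricDist Ω :=
    IsUltrametricDist.isUltrametricDist_of_isNonarchimedean_norm fun x y =>
      isNonarchimedean_spectralNorm (K := C) (L := Ω) x y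
  let ι : Q →+* Ω := (algebraMap C Ω).comp
    ((Completion.coeRingHom).comp (WithAbs.equiv v).symm.toRingHom)
  refine ⟨Ω, nΩ, uΩ, inferInstance, ι, fun q => ?_, fun s => ?_⟩
  · show spectralNorm C Ω (algebraMap C Ω _) = _
    rw [spectralNorm_extends]
    exact hnorm q
  · let E : IntermediateField C Ω := IntermediateField.adjoin C (s : Set Ω)
    have : FiniteDimensional C E :=
      IntermediateField.finiteDimensional_adjoin fun x _ => Algebra.IsIntegral.isIntegral x
    have : FiniteDimensional C E.toSubalgebra.toSubmodule :=
      inferInstanceAs (FiniteDimensional C E)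
    refine ⟨E.toSubfield, ?_, fun q => E.algebraMap_mem _,
      fun y hy => IntermediateField.subset_adjoin C _ hy⟩
    exact Submodule.complete_of_finiteDimensional E.toSubalgebra.toSubmodule

end Vale.Agent.P217.PointExists
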