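import Mathlib

/-!
# P217: finiteness of `R[[τ]] / I` over a power series ring in fewer variables
-/

noncomputable section

namespace Vale.Agent.P217.PointExists

open MvPowerSeries Finset

variable {R σ τ : Type*} [CommRing R]

/-- A series without coefficients in the box is a combination of the `X l ^ M`. -/
theorem mem_span_X_pow (M : ℕ) (s : Finset τ) :
    ∀ f : MvPowerSeries τ R, (∀ d : τ →₀ ℕ, (∀ l ∈ s, d l < M) → coeff d f = 0) →
      f ∈ Ideal.span ((fun l => (X l : MvPowerSeries τ R) ^ M) '' (s : Set τ)) := by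
  classical
  induction s using Finset.induction with
  | empty =>
    intro f hf
    rw [show f = 0 from MvPowerSeries.ext fun d => by simpa using hf d (by simp)]
    exact Ideal.zero_mem _
  | @insert l s hl ih =>
    intro f hf
    let q : MvPowerSeries τ R := fun d => coeff (d + Finsupp.single l M) f
    let f' : MvPowerSeries τ R := fun d => if d l < M then coeff d f else 0
    have hf' : ∀ d, coeff d f' = if d l < M then coeff d f else 0 := fun d => rfl
    have hq : ∀ d, coeff d q = coeff (d + Finsupp.single l M) f := fun d => rfl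
    have e : f = f' + X l ^ M * q := by
      ext d
      rw [map_add, X_pow_eq, coeff_monomial_mul, hf', one_mul, hq]
      by_cases h : d l < M
      · rw [if_pos h, if_neg (by rw [Finsupp.single_le_iff]; omega), add_zero]
      · rw [if_neg h, if_pos (Finsupp.single_le_iff.2 (not_lt.1 h)), zero_add,
          tsub_add_cancel_of_le (Finsupp.single_le_iff.2 (not_lt.1 h))]
    rw [e]
    refine Ideal.add_mem _ ?_ (Ideal.mul_mem_right _ _ (Ideal.subset_span ⟨l, by simp, rfl⟩))
    refine Ideal.span_mono (Set.image_mono (by simp)) (ih f' fun d hd => ?_)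
    rw [hf']
    split_ifs with h
    · exact hf d fun a ha => by
        rcases Finset.mem_insert.1 ha with rfl | ha
        · exact h
        · exact hd a ha
    · rfl

/-- Series `∑ t ^ k * g k` exist. -/
def HasSeries {A : Type*} [CommRing A] (t : A) : Prop :=
  ∀ g : ℕ → A, ∃ G, ∀ N, t ^ N ∣ G - ∑ k ∈ range N, t ^ k * g k

theorem hasSeries_X (s : σ) : HasSeries (X s : MvPowerSeries σ R) := by
  classical
  intro g
  let H : ℕ → MvPowerSeries σ R := fun N d =>
    ∑ i ∈ range (d s + 1), coeff (d - Finsupp.single s i) (g (N + i))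
  have hH : ∀ N d, coeff d (H N) =
      ∑ i ∈ range (d s + 1), coeff (d - Finsupp.single s i) (g (N + i)) := fun N d => rfl
  have hrec : ∀ N, H N = g N + X s * H (N + 1) := by
    intro N
    ext d
    rw [map_add, X_def, coeff_monomial_mul, one_mul, hH, hH]
    by_cases h : 1 ≤ d s
    · rw [if_pos (Finsupp.single_le_iff.2 h), sum_range_succ', add_comm]
      congr 1
      · simp
      · rw [show (d - Finsupp.single s 1 : σ →₀ ℕ) s + 1 = d s by simp; omega]
        refine sum_congr rfl fun i _ => ?_
        rw [tsub_tsub, ← Finsupp.single_add, add_comm 1 i, show N + 1 + i = N + (i + 1) by omega]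
    · rw [if_neg (by rw [Finsupp.single_le_iff]; exact h), add_zero,
        show d s = 0 by omega]
      simp
  refine ⟨H 0, fun N => ⟨H N, ?_⟩⟩
  induction N with
  | zero => simp
  | succ N ih =>
    rw [sum_range_succ, ← sub_sub, ih]
    conv_lhs => rw [hrec N]
    ring

theorem hasSeries_C (a : R) [IsAdicComplete (Ideal.span {a}) R] :
    HasSeries (C a : MvPowerSeries σ R) := by
  intro g
  let f : (σ →₀ ℕ) → ℕ → R := fun d N => ∑ k ∈ range N, a ^ k * coeff d (g k)
  have key : ∀ d, ∃ L : R, ∀ N, a ^ N ∣ L - f d N := by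
    intro d
    obtain ⟨L, hL⟩ := IsPrecomplete.prec (I := Ideal.span {a}) inferInstance (f := f d)
      fun {m n} hmn => by
        rw [SModEq.sub_mem, smul_eq_mul, Ideal.mul_top, Ideal.span_singleton_pow,
          Ideal.mem_span_singleton]
        show a ^ m ∣ f d m - f d n
        rw [← dvd_neg, neg_sub]
        show a ^ m ∣ (∑ k ∈ range n, _) - ∑ k ∈ range m, _
        rw [← sum_sdiff_eq_sub (range_mono hmn)]
        refine Finset.dvd_sum fun k hk => Dvd.dvd.mul_right (pow_dvd_pow a ?_) _
        simp only [mem_sdiff, mem_range] at hk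
        omega
    refine ⟨L, fun N => ?_⟩
    have := hL N
    rw [SModEq.sub_mem, smul_eq_mul, Ideal.mul_top, Ideal.span_singleton_pow,
      Ideal.mem_span_singleton] at this
    rwa [← dvd_neg, neg_sub] at this
  choose L hL using key
  let G : MvPowerSeries σ R := L
  refine ⟨G, fun N => ?_⟩
  choose c hc using fun d => hL d N
  let c' : MvPowerSeries σ R := c
  refine ⟨c', MvPowerSeries.ext fun d => ?_⟩
  rw [← map_pow, coeff_C_mul, map_sub, map_sum]
  show L d - _ = a ^ N * c d
  rw [← hc d]
  simp only [← map_pow, coeff_C_mul, f]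

variable [Fintype τ] [Fintype σ] (e : σ ↪ τ) (M : ℕ)

/-- Index set of the monomials off the range of `e` with exponents `< M`. -/
abbrev Box := {l : τ // l ∉ Set.range e} → Fin M

instance : Fintype (Box e M) := Fintype.ofFinite _

/-- The monomial exponent attached to a box index. -/
def boxExp (b : Box e M) : τ →₀ ℕ :=
  Finsupp.equivFunOnFinite.symm fun l =>
    haveI := Classical.dec (l ∈ Set.range e)
    if h : l ∈ Set.range e then 0 else (b ⟨l, h⟩ : ℕ)

omit [Fintype σ] in
theorem boxExp_range (b : Box e M) (i : σ) : boxExp e M b (e i) = 0 := by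
  simp [boxExp]

omit [Fintype σ] in
theorem boxExp_off (b : Box e M) {l : τ} (h : l ∉ Set.range e) :
    boxExp e M b l = (b ⟨l, h⟩ : ℕ) := by
  simp [boxExp, h]

/-- One step of the decomposition. -/
theorem exists_step (f : MvPowerSeries τ R) :
    ∃ g : Box e M → MvPowerSeries σ R,
      f - ∑ b, rename e (g b) * monomial (boxExp e M b) 1 ∈
        Ideal.span ((fun l => (X l : MvPowerSeries τ R) ^ M) '' (Set.range e)ᶜ) := by
  classical
  let g : Box e M → MvPowerSeries σ R :=
    fun b a => coeff (Finsupp.embDomain e a + boxExp e M b) f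
  have hg : ∀ b a, coeff a (g b) = coeff (Finsupp.embDomain e a + boxExp e M b) f :=
    fun b a => rfl
  refine ⟨g, ?_⟩
  have hs : ((univ.filter fun l => l ∉ Set.range e : Finset τ) : Set τ) = (Set.range e)ᶜ := by
    ext; simp
  rw [← hs]
  refine mem_span_X_pow M _ _ fun d hd => ?_
  let b₀ : Box e M := fun l => ⟨d l, hd l (by simpa using l.2)⟩
  let a₀ : σ →₀ ℕ := Finsupp.equivFunOnFinite.symm fun i => d (e i)
  have h0 : Finsupp.embDomain e a₀ + boxExp e M b₀ = d := by
    ext l
    rw [Finsupp.add_apply]
    by_cases h : l ∈ Set.range e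
    · obtain ⟨i, rfl⟩ := h
      rw [Finsupp.embDomain_apply_self, boxExp_range]
      simp [a₀]
    · rw [Finsupp.embDomain_of_notMem_range _ _ _ h, boxExp_off e M b₀ h]
      simp [b₀]
  rw [map_sub, map_sum, Finset.sum_eq_single b₀, coeff_mul_monomial, if_pos, mul_one]
  · conv_lhs => arg 2; arg 1; rw [show d - boxExp e M b₀ = Finsupp.embDomain e a₀ from
      tsub_eq_of_eq_add h0.symm]
    rw [coeff_embDomain_rename, hg, h0, sub_self]
  · exact h0 ▸ le_add_self
  · intro b _ hb
    rw [coeff_mul_monomial]
    split_ifs with hle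
    · rw [mul_one]
      refine coeff_rename_eq_zero _ _ ?_
      rintro ⟨a, ha⟩
      refine hb (funext fun l => Fin.ext ?_)
      have := DFunLike.congr_fun ha l.1
      rw [Finsupp.mapDomain_of_notMem_range _ _ l.2, Finsupp.tsub_apply,
        boxExp_off e M b l.2] at this
      have h2 := hle l.1
      rw [boxExp_off e M b l.2] at h2
      rw [Subtype.coe_eta] at this h2
      show (b l : ℕ) = d l.1
      omega
    · rfl
  · simp

/-- Every element is a combination of the box monomials modulo `I`. -/
theorem exists_decomp (I : Ideal (MvPowerSeries τ R)) (t : MvPowerSeries σ R) (ht : HasSeries t)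
    (hM : ∀ l ∉ Set.range e, (X l : MvPowerSeries τ R) ^ M ∈ I ⊔ Ideal.span {rename e t})
    (hsep : ∀ f, (∀ N, f ∈ I ⊔ Ideal.span {rename e t ^ N}) → f ∈ I) (f : MvPowerSeries τ R) :
    ∃ g : Box e M → MvPowerSeries σ R,
      f - ∑ b, rename e (g b) * monomial (boxExp e M b) 1 ∈ I := by
  classical
  have step : ∀ f, ∃ g : Box e M → MvPowerSeries σ R, ∃ f',
      f - ∑ b, rename e (g b) * monomial (boxExp e M b) 1 - rename e t * f' ∈ I := fun f => by
    obtain ⟨g, hg⟩ := exists_step e M f
    have := (Ideal.span_le.2 (by rintro _ ⟨l, hl, rfl⟩; exact hM l hl)) hg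
    obtain ⟨i, hi, j, hj, hij⟩ := Submodule.mem_sup.1 this
    obtain ⟨f', rfl⟩ := Ideal.mem_span_singleton'.1 hj
    exact ⟨g, f', by rw [← hij, mul_comm f', add_sub_cancel_right]; exact hi⟩
  choose G F hGF using step
  let fs : ℕ → MvPowerSeries τ R := fun k => F^[k] f
  have hsum : ∀ N, f - ∑ b, rename e (∑ k ∈ range N, t ^ k * G (fs k) b) *
      monomial (boxExp e M b) 1 - rename e t ^ N * fs N ∈ I := by
    intro N
    induction N with
    | zero => simp [fs]
    | succ N ih =>
      have h2 := Ideal.add_mem _ ih (I.mul_mem_left (rename e t ^ N) (hGF (fs N)))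
      convert h2 using 1
      simp only [sum_range_succ, map_add, map_mul, map_pow, add_mul, sum_add_distrib, mul_sub,
        mul_sum, fs, Function.iterate_succ_apply', pow_succ, mul_assoc]
      ring
  choose G' hG' using fun b => ht fun k => G (fs k) b
  refine ⟨G', hsep _ fun N => ?_⟩
  choose c hc using fun b => hG' b N
  have : f - ∑ b, rename e (G' b) * monomial (boxExp e M b) 1 =
      (f - ∑ b, rename e (∑ k ∈ range N, t ^ k * G (fs k) b) * monomial (boxExp e M b) 1 -
          rename e t ^ N * fs N) +
        rename e t ^ N * (fs N - ∑ b, rename e (c b) * monomial (boxExp e M b) 1) := by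
    simp only [fun b => sub_eq_iff_eq_add.1 (hc b), map_add, map_mul, map_pow, add_mul,
      sum_add_distrib, mul_sub, mul_sum, mul_assoc]
    ring
  rw [this]
  exact Ideal.add_mem _ (Ideal.mem_sup_left (hsum N))
    (Ideal.mem_sup_right (Ideal.mul_mem_right _ _ (Ideal.mem_span_singleton_self _)))

/-- Krull's intersection theorem in the form used above. -/
theorem sep_of_prime {A : Type*} [CommRing A] [IsNoetherianRing A] (I : Ideal A) [I.IsPrime]
    (t : A) (ht : I ⊔ Ideal.span {t} ≠ ⊤) {f : A} (hf : ∀ N, f ∈ I ⊔ Ideal.span {t ^ N}) :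
    f ∈ I := by
  have key : Ideal.span {Ideal.Quotient.mk I t} ≠ ⊤ := by
    intro h
    rw [Ideal.span_singleton_eq_top] at h
    obtain ⟨a, ha⟩ := h.exists_left_inv
    obtain ⟨a, rfl⟩ := Ideal.Quotient.mk_surjective a
    refine ht ((Ideal.eq_top_iff_one _).2 ?_)
    rw [← map_mul, ← map_one (Ideal.Quotient.mk I), Ideal.Quotient.eq] at ha
    have := Ideal.sub_mem (I ⊔ Ideal.span {t})
      (Ideal.mem_sup_right (Ideal.mul_mem_left _ a (Ideal.mem_span_singleton_self t)))
      (Ideal.mem_sup_left ha)
    simpa using this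
  rw [← Ideal.Quotient.eq_zero_iff_mem, ← Ideal.mem_bot,
    ← Ideal.iInf_pow_eq_bot_of_isDomain _ key, Ideal.mem_iInf]
  intro N
  obtain ⟨i, hi, j, hj, hij⟩ := Submodule.mem_sup.1 (hf N)
  rw [← hij, map_add, Ideal.Quotient.eq_zero_iff_mem.2 hi, zero_add, Ideal.span_singleton_pow,
    Ideal.mem_span_singleton, ← map_pow]
  exact map_dvd _ (Ideal.mem_span_singleton.1 hj)

end Vale.Agent.P217.PointExists
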