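import Mathlib

/-!
# P217: Gauss absolute values on power series rings
-/

noncomputable section

namespace Vale.Agent.P217.PointExists

open MvPowerSeries

/-- A non-archimedean absolute value extends to the field of fractions. -/
theorem exists_abs_fraction {A : Type*} [CommRing A] [IsDomain A] (K : Type*) [Field K]
    [Algebra A K] [IsFractionRing A K] (g : AbsoluteValue A ℝ) (hg : IsNonarchimedean g) :
    ∃ w : AbsoluteValue K ℝ, IsNonarchimedean w ∧ ∀ a, w (algebraMap A K a) = g a := by
  have inj : Function.Injective (algebraMap A K) := IsFractionRing.injective A K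
  have rep : ∀ x : K, ∃ a b : A, b ≠ 0 ∧ x = algebraMap A K a / algebraMap A K b := fun x => by
    obtain ⟨a, b, hb, h⟩ := IsFractionRing.div_surjective (A := A) x
    exact ⟨a, b, nonZeroDivisors.ne_zero hb, h.symm⟩
  choose na nb hnb hrep using rep
  have ne0 : ∀ {b : A}, b ≠ 0 → algebraMap A K b ≠ 0 := fun hb => (map_ne_zero_iff _ inj).2 hb
  have key : ∀ x a b, b ≠ 0 → x = algebraMap A K a / algebraMap A K b →
      g (na x) / g (nb x) = g a / g b := by
    intro x a b hb h
    have h2 := (hrep x).symm.trans h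
    rw [div_eq_div_iff (ne0 (hnb x)) (ne0 hb), ← map_mul, ← map_mul] at h2
    rw [div_eq_div_iff (g.ne_zero (hnb x)) (g.ne_zero hb), ← map_mul, ← map_mul, inj h2]
  have repr2 : ∀ x y : K,
      x + y = algebraMap A K (na x * nb y + na y * nb x) / algebraMap A K (nb x * nb y) := by
    intro x y
    conv_lhs => rw [hrep x, hrep y]
    rw [map_add, map_mul, map_mul, map_mul]
    field_simp [ne0 (hnb x), ne0 (hnb y)]
  have na_add : ∀ x y : K, g (na (x + y)) / g (nb (x + y)) ≤
      max (g (na x) / g (nb x)) (g (na y) / g (nb y)) := by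
    intro x y
    rw [key _ _ _ (mul_ne_zero (hnb x) (hnb y)) (repr2 x y)]
    have h0x := g.pos (hnb x)
    have h0y := g.pos (hnb y)
    have := hg (na x * nb y) (na y * nb x)
    rw [map_mul, map_mul] at this
    rw [map_mul, div_le_iff₀ (mul_pos h0x h0y), max_mul_of_nonneg _ _ (by positivity)]
    refine this.trans_eq ?_
    congr 1 <;> field_simp
  refine ⟨{ toFun := fun x => g (na x) / g (nb x)
            map_mul' := fun x y => ?_
            nonneg' := fun x => div_nonneg (g.nonneg _) (g.nonneg _)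
            eq_zero' := fun x => ?_
            add_le' := fun x y => ?_ }, fun x y => na_add x y, fun a => ?_⟩
  · rw [key (x * y) (na x * na y) (nb x * nb y) (mul_ne_zero (hnb x) (hnb y))
      (by conv_lhs => rw [hrep x, hrep y]
          rw [map_mul, map_mul, div_mul_div_comm]), map_mul, map_mul, div_mul_div_comm]
  · constructor
    · intro h
      rw [div_eq_zero_iff] at h
      rcases h with h | h
      · rw [hrep x, (g.eq_zero.1 h), map_zero, zero_div]
      · exact absurd (g.eq_zero.1 h) (hnb x)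
    · intro h
      rw [key x 0 1 one_ne_zero (by simp [h])]
      simp
  · refine (na_add x y).trans (max_le_iff.2 ⟨?_, ?_⟩)
    · exact le_add_of_nonneg_right (div_nonneg (g.nonneg _) (g.nonneg _))
    · exact le_add_of_nonneg_left (div_nonneg (g.nonneg _) (g.nonneg _))
  · show g (na _) / g (nb _) = g a
    rw [key (algebraMap A K a) a 1 one_ne_zero (by simp)]
    simp

variable {R σ : Type*} [CommRing R] [IsDomain R] [Fintype σ] [LinearOrder σ]

/-- The Gauss absolute value of radii `r` on `R[[σ]]`. -/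
theorem exists_gauss_abs (v : AbsoluteValue R ℝ) (hv : IsNonarchimedean v)
    (hv1 : ∀ a, v a ≤ 1) (r : σ → ℝ) (hr0 : ∀ i, 0 < r i) (hr1 : ∀ i, r i < 1) :
    ∃ g : AbsoluteValue (MvPowerSeries σ R) ℝ, IsNonarchimedean g ∧ (∀ f, g f ≤ 1) ∧
      (∀ i, g (X i) = r i) ∧ ∀ a, g (C a) = v a := by
  classical
  let P : (σ →₀ ℕ) → ℝ := fun t => t.prod (r · ^ ·)
  have hP0 : ∀ t, 0 < P t := fun t => Finset.prod_pos fun i _ => pow_pos (hr0 i) _
  have hP1 : ∀ t, P t ≤ 1 := fun t =>
    Finset.prod_le_one (fun i _ => (pow_pos (hr0 i) _).le)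
      fun i _ => pow_le_one₀ (hr0 i).le (hr1 i).le
  have hPle : ∀ t i, P t ≤ r i ^ t i := fun t i => by
    show t.prod (r · ^ ·) ≤ _
    rw [Finsupp.prod_fintype _ _ (fun i => pow_zero _), ← Finset.mul_prod_erase _ _
      (Finset.mem_univ i)]
    exact mul_le_of_le_one_right (pow_pos (hr0 i) _).le
      (Finset.prod_le_one (fun i _ => (pow_pos (hr0 i) _).le)
        fun i _ => pow_le_one₀ (hr0 i).le (hr1 i).le)
  have hPadd : ∀ a b, P (a + b) = P a * P b := fun a b => by
    show (a + b).prod (r · ^ ·) = a.prod (r · ^ ·) * b.prod (r · ^ ·)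
    exact Finsupp.prod_add_index' (fun i => pow_zero _) fun i m n => pow_add _ _ _
  have hle1 : ∀ (f : MvPowerSeries σ R) t, v (coeff t f) * P t ≤ 1 := fun f t =>
    mul_le_one₀ (hv1 _) (hP0 t).le (hP1 t)
  have hbd : ∀ f : MvPowerSeries σ R, HasGaussNorm v r f := fun f =>
    ⟨1, by rintro _ ⟨t, rfl⟩; exact hle1 f t⟩
  -- the maximum is attained, at finitely many indices
  have ach : ∀ f : MvPowerSeries σ R, f ≠ 0 → ∃ i, AchievesGaussNorm v r f i ∧
      ∀ t, AchievesGaussNorm v r f t → toLex i ≤ toLex t := by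
    intro f hf
    obtain ⟨t₀, ht₀⟩ := (MvPowerSeries.ne_zero_iff_exists_coeff_ne_zero f).1 hf
    set c₀ := v (coeff t₀ f) * P t₀ with hc₀
    have hc : 0 < c₀ := mul_pos (v.pos ht₀) (hP0 t₀)
    have hfin : {t : σ →₀ ℕ | c₀ ≤ v (coeff t f) * P t}.Finite := by
      have hN : ∀ i, ∃ N, r i ^ N < c₀ := fun i => exists_pow_lt_of_lt_one hc (hr1 i)
      choose N hN using hN
      refine (Set.finite_Iic (Finsupp.equivFunOnFinite.symm N)).subset fun t ht i => ?_
      by_contra hlt
      push Not at hlt
      have h1 : c₀ ≤ r i ^ t i :=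
        ht.trans ((mul_le_of_le_one_left (hP0 t).le (hv1 _)).trans (hPle t i))
      exact absurd (h1.trans (pow_le_pow_of_le_one (hr0 i).le (hr1 i).le hlt.le)) (hN i).not_ge
    let S := hfin.toFinset
    have hS : t₀ ∈ S := hfin.mem_toFinset.2 (le_refl c₀)
    obtain ⟨m, hm, hmax⟩ := S.exists_max_image (fun t => v (coeff t f) * P t) ⟨t₀, hS⟩
    have hmG : ∀ t, v (coeff t f) * P t ≤ v (coeff m f) * P m := fun t => by
      by_cases ht : c₀ ≤ v (coeff t f) * P t
      · exact hmax t (hfin.mem_toFinset.2 ht)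
      · exact (not_le.1 ht).le.trans (hfin.mem_toFinset.1 hm)
    have hG : gaussNorm v r f = v (coeff m f) * P m :=
      le_antisymm (ciSup_le hmG) (le_gaussNorm v r f (hbd f) m)
    obtain ⟨i, hi, hmin⟩ := (S.filter (AchievesGaussNorm v r f)).exists_min_image toLex
      ⟨m, Finset.mem_filter.2 ⟨hm, hG.symm⟩⟩
    refine ⟨i, (Finset.mem_filter.1 hi).2, fun t ht => hmin t (Finset.mem_filter.2 ⟨?_, ht⟩)⟩
    refine hfin.mem_toFinset.2 ?_
    show c₀ ≤ v (coeff t f) * P t
    exact (le_gaussNorm v r f (hbd f) t₀).trans_eq ht.symm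
  have gmul : ∀ f g : MvPowerSeries σ R,
      gaussNorm v r (f * g) = gaussNorm v r f * gaussNorm v r g := by
    intro f g
    by_cases hf : f = 0
    · simp [hf, gaussNorm_zero (⇑v) r (map_zero v)]
    by_cases hg : g = 0
    · simp [hg, gaussNorm_zero (⇑v) r (map_zero v)]
    obtain ⟨i, hi, himin⟩ := ach f hf
    obtain ⟨j, hj, hjmin⟩ := ach g hg
    refine gaussNorm_mul_eq_mul (⇑v) r f g (hbd _) (hbd _) (hbd _) v.nonneg (map_zero v) hv
      (map_mul v) (fun a => v.map_neg a) (fun x hx => v.eq_zero.1 hx) hr0 ⟨i, j, hi, hj, ?_⟩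
    rintro ⟨a, b⟩ hab hne
    rw [Finset.HasAntidiagonal.mem_antidiagonal] at hab
    simp only at hab ⊢
    rw [map_mul]
    refine lt_of_mul_lt_mul_right ?_ (hP0 (i + j)).le
    have e : ∀ x y : ℝ, x * y * P (i + j) = (x * P i) * (y * P j) := fun x y => by
      rw [hPadd]; ring
    have e' : v (coeff a f) * v (coeff b g) * P (i + j) =
        (v (coeff a f) * P a) * (v (coeff b g) * P b) := by
      rw [← hab, hPadd]; ring
    rw [e', e]
    have hA : v (coeff a f) * P a ≤ v (coeff i f) * P i :=
      (le_gaussNorm v r f (hbd f) a).trans_eq hi.symm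
    have hB : v (coeff b g) * P b ≤ v (coeff j g) * P j :=
      (le_gaussNorm v r g (hbd g) b).trans_eq hj.symm
    have gpos : ∀ (h : MvPowerSeries σ R) k, h ≠ 0 → AchievesGaussNorm v r h k →
        0 < v (coeff k h) * P k := by
      intro h k hh hk
      obtain ⟨t, ht⟩ := (MvPowerSeries.ne_zero_iff_exists_coeff_ne_zero h).1 hh
      exact (mul_pos (v.pos ht) (hP0 t)).trans_le
        ((le_gaussNorm v r h (hbd h) t).trans_eq hk.symm)
    rcases hA.lt_or_eq with hA' | hA'
    · exact (mul_le_mul_of_nonneg_left hB (mul_nonneg (v.nonneg _) (hP0 a).le)).trans_lt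
        (mul_lt_mul_of_pos_right hA' (gpos g j hg hj))
    rcases hB.lt_or_eq with hB' | hB'
    · rw [hA']
      exact mul_lt_mul_of_pos_left hB' (gpos f i hf hi)
    exfalso
    have ha : toLex i ≤ toLex a := himin a (hA'.trans hi)
    have hb : toLex j ≤ toLex b := hjmin b (hB'.trans hj)
    rcases ha.lt_or_eq with h | h
    · exact (add_lt_add_of_lt_of_le h hb).ne (congrArg toLex hab.symm)
    · have h' : i = a := toLex_inj.1 h
      subst h'
      exact hne (Prod.ext rfl (add_left_cancel hab))
  have h0 : ∀ f : MvPowerSeries σ R, 0 ≤ gaussNorm v r f := fun f =>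
    gaussNorm_nonneg _ _ f v.nonneg
  have gna : ∀ f g : MvPowerSeries σ R,
      gaussNorm v r (f + g) ≤ max (gaussNorm v r f) (gaussNorm v r g) := fun f g =>
    gaussNorm_add_le_max _ _ f g (fun i => (hr0 i).le) v.nonneg hv (hbd f) (hbd g)
  have single : ∀ (t : σ →₀ ℕ) (a : R), gaussNorm v r (monomial t a) = v a * P t := by
    intro t a
    refine le_antisymm (ciSup_le fun u => ?_) ?_
    · rw [coeff_monomial]
      split_ifs with h
      · rw [h]
      · simpa using mul_nonneg (v.nonneg a) (hP0 t).le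
    · have := le_gaussNorm v r (monomial t a) (hbd _) t
      rwa [coeff_monomial_same] at this
  refine ⟨{ toFun := fun f => gaussNorm v r f
            map_mul' := gmul
            nonneg' := h0
            eq_zero' := fun f => gaussNorm_eq_zero_iff (⇑v) r f (map_zero v) v.nonneg
              (fun x hx => v.eq_zero.1 hx) hr0 (hbd f)
            add_le' := fun f g => (gna f g).trans
              (max_le (le_add_of_nonneg_right (h0 _)) (le_add_of_nonneg_left (h0 _))) },
    gna, fun f => ciSup_le (hle1 f), fun i => ?_, fun a => ?_⟩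
  · show gaussNorm v r (monomial (Finsupp.single i 1) (1 : R)) = r i
    rw [single, map_one, one_mul]
    show (Finsupp.single i 1).prod (r · ^ ·) = r i
    simp
  · show gaussNorm v r (monomial 0 a) = v a
    rw [single]
    simp [P]

end Vale.Agent.P217.PointExists
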