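import Mathlib

/-!
# P217: `p`-degree of fields of power series and of their finite extensions
-/

noncomputable section

namespace Vale.Agent.P217.PointExists

open Module

/-- Power series over a perfect field are spanned over their `p`-th powers by the monomials with
exponents `< p`. -/
theorem exists_pow_decomp {k σ : Type*} [Field k] [Fintype σ] [DecidableEq σ] (p : ℕ) [Fact p.Prime] [CharP k p]
    [PerfectRing k p] (f : MvPowerSeries σ k) :
    ∃ g : (σ → Fin p) → MvPowerSeries σ k,
      f = ∑ a : σ → Fin p,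
        MvPowerSeries.monomial (Finsupp.equivFunOnFinite.symm fun i => (a i : ℕ)) 1 * g a ^ p := by
  have hp : p ≠ 0 := (Fact.out : p.Prime).ne_zero
  have hp0 : 0 < p := (Fact.out : p.Prime).pos
  let E : (σ → Fin p) → (σ →₀ ℕ) := fun a => Finsupp.equivFunOnFinite.symm fun i => (a i : ℕ)
  let g : (σ → Fin p) → MvPowerSeries σ k :=
    fun a m => (frobeniusEquiv k p).symm (MvPowerSeries.coeff (p • m + E a) f)
  have hg : ∀ a m, MvPowerSeries.coeff (p • m) (g a ^ p) =
      MvPowerSeries.coeff (p • m + E a) f := by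
    intro a m
    rw [← MvPowerSeries.map_frobenius_expand p hp, MvPowerSeries.coeff_map,
      MvPowerSeries.coeff_expand_smul]
    exact frobenius_apply_frobeniusEquiv_symm k p _
  refine ⟨g, MvPowerSeries.ext fun d => ?_⟩
  let a₀ : σ → Fin p := fun i => ⟨d i % p, Nat.mod_lt _ hp0⟩
  let m₀ : σ →₀ ℕ := Finsupp.equivFunOnFinite.symm fun i => d i / p
  have hd : p • m₀ + E a₀ = d := Finsupp.ext fun i => by
    simp [m₀, E, a₀, Nat.div_add_mod]
  rw [map_sum, Finset.sum_eq_single a₀, MvPowerSeries.coeff_monomial_mul,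
    if_pos (hd ▸ le_add_self : E a₀ ≤ d), one_mul,
    show d - E a₀ = p • m₀ from tsub_eq_of_eq_add hd.symm, hg, hd]
  · intro b _ hb
    rw [MvPowerSeries.coeff_monomial_mul]
    split_ifs with hle
    · obtain ⟨i, hi⟩ : ∃ i, ¬ p ∣ (d - E b) i := by
        by_contra! h
        refine hb (funext fun i => Fin.ext ?_)
        obtain ⟨c, hc⟩ := h i
        have h1 : (b i : ℕ) ≤ d i := by simpa [E] using hle i
        have h2 : d i - (b i : ℕ) = p * c := by simpa [E] using hc
        show (b i : ℕ) = d i % p
        rw [show d i = (b i : ℕ) + p * c by omega, Nat.add_mul_mod_self_left,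
          Nat.mod_eq_of_lt (b i).2]
      rw [one_mul, ← MvPowerSeries.map_frobenius_expand p hp, MvPowerSeries.coeff_map,
        MvPowerSeries.coeff_expand_of_not_dvd _ _ _ hi, map_zero]
    · rfl
  · simp

/-- A finite extension of a field spanned over its `p`-th powers by `N` elements has the same
property. -/
theorem exists_pow_spanning {Q L : Type*} [Field Q] [Field L] [Algebra Q L]
    [FiniteDimensional Q L] (p : ℕ) [Fact p.Prime] [CharP L p] {N : ℕ} (e : Fin N → Q)
    (he : ∀ q : Q, ∃ z : Fin N → Q, q = ∑ i, z i ^ p * e i) :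
    ∃ b : Fin N → L, ∀ y : L, ∃ z : Fin N → L, y = ∑ i, z i ^ p * b i := by
  classical
  let Lp : Subfield L := (frobenius L p).fieldRange
  let Qp : Subfield L := ((frobenius L p).comp (algebraMap Q L)).fieldRange
  have memLp : ∀ x : L, x ^ p ∈ Lp := fun x => ⟨x, rfl⟩
  have memQp : ∀ q : Q, algebraMap Q L q ^ p ∈ Qp := fun q => ⟨q, rfl⟩
  let v := finBasis Q L
  let m := finrank Q L
  let G : Fin N × Fin m → L := fun x => algebraMap Q L (e x.1) * v x.2
  have hspan : Submodule.span Qp (Set.range G) = ⊤ := by
    rw [Submodule.eq_top_iff']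
    intro y
    rw [← v.sum_repr y]
    refine Submodule.sum_mem _ fun k _ => ?_
    obtain ⟨z, hz⟩ := he (v.repr y k)
    rw [Algebra.smul_def, hz, map_sum, Finset.sum_mul]
    refine Submodule.sum_mem _ fun i _ => ?_
    rw [map_mul, map_pow, mul_assoc]
    exact Submodule.smul_mem _ (⟨_, memQp (z i)⟩ : Qp) (Submodule.subset_span ⟨(i, k), rfl⟩)
  have : Module.Finite Qp L :=
    Module.finite_def.2 (hspan ▸ Submodule.fg_span (Set.finite_range G))
  have hdim : finrank Qp L ≤ N * m := by
    rw [← finrank_top Qp L, ← hspan]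
    refine (finrank_range_le_card G).trans (le_of_eq ?_)
    simp
  have hle : ∀ s : Finset L, LinearIndependent Lp (fun x : s => (x : L)) → s.card ≤ N := by
    intro s hs
    let T : Fin m × s → L := fun x => v x.1 ^ p * (x.2 : L)
    have hT : LinearIndependent Qp T := by
      rw [Fintype.linearIndependent_iff]
      intro c hc
      have hc' : ∀ x, ∃ q, (c x : L) = algebraMap Q L q ^ p := fun x => by
        obtain ⟨q, hq⟩ := (c x).2
        exact ⟨q, hq.symm⟩
      choose q hq using hc'
      have h2 : ∀ j : s, ∑ k, q (k, j) • v k = 0 := by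
        have h := Fintype.linearIndependent_iff.1 hs
          (fun j => ⟨(∑ k, q (k, j) • v k) ^ p, memLp _⟩) ?_
        · intro j
          exact eq_zero_of_pow_eq_zero (n := p) (congrArg Subtype.val (h j))
        rw [← hc, Fintype.sum_prod_type_right]
        refine Finset.sum_congr rfl fun j _ => ?_
        show (∑ k, q (k, j) • v k) ^ p * (j : L) = ∑ k, (c (k, j) : L) * (v k ^ p * (j : L))
        rw [sum_pow_char, Finset.sum_mul]
        refine Finset.sum_congr rfl fun k _ => ?_
        rw [hq, Algebra.smul_def, mul_pow, mul_assoc]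
      intro x
      have h3 := Fintype.linearIndependent_iff.1 v.linearIndependent _ (h2 x.2) x.1
      refine Subtype.ext ?_
      rw [hq]
      simp [show q x = 0 from h3, (Fact.out : p.Prime).ne_zero]
    have h4 := hT.fintype_card_le_finrank.trans hdim
    simp only [Fintype.card_prod, Fintype.card_fin, Fintype.card_coe] at h4
    have hm : 0 < m := finrank_pos
    nlinarith
  have hrank : Module.rank Lp L ≤ N := rank_le hle
  have : Module.Finite Lp L :=
    Module.rank_lt_aleph0_iff.1 (hrank.trans_lt Cardinal.natCast_lt_aleph0)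
  have hN : finrank Lp L ≤ N := finrank_le_of_rank_le hrank
  let B := finBasis Lp L
  let b : Fin N → L := fun i => if h : (i : ℕ) < finrank Lp L then B ⟨i, h⟩ else 0
  refine ⟨b, fun y => ?_⟩
  have hr : ∀ k, ∃ z : L, z ^ p = (B.repr y k : L) := fun k => (B.repr y k).2
  choose z hz using hr
  refine ⟨fun i => if h : (i : ℕ) < finrank Lp L then z ⟨i, h⟩ else 0, ?_⟩
  rw [← Finset.sum_subset (Finset.subset_univ (Finset.univ.map (Fin.castLEEmb hN))), Finset.sum_map]
  · conv_lhs => rw [← B.sum_repr y]
    refine Finset.sum_congr rfl fun k _ => ?_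
    simp [b, hz]
    rfl
  · intro i _ hi
    have : ¬ (i : ℕ) < finrank Lp L := fun h => hi (Finset.mem_map.2 ⟨⟨i, h⟩, by simp, rfl⟩)
    simp [this, b]

end Vale.Agent.P217.PointExists
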