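import Vale.Agent.P217.Point.Basic
import Vale.Agent.P217.Point.Exists.Field
import Vale.Agent.P217.Point.Exists.Gauss
import Vale.Agent.P217.Point.Exists.Finite
import Vale.Agent.P217.Point.Exists.PDeg

/-!
# P217: points from a finite presentation of `E0 / I` over a valued domain
-/

noncomputable section

namespace Vale.Agent.P217.PointExists

open Ideal.Quotient

variable {p n : ℕ} [Fact p.Prime]

/-- An element integral over a ring of elements of norm `≤ 1` has norm `≤ 1`. -/
theorem norm_le_one_of_root {A K : Type*} [CommRing A] [NormedField K] [IsUltrametricDist K]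
    (φ : A →+* K) (hφ : ∀ a, ‖φ a‖ ≤ 1) {q : Polynomial A} (hq : q.Monic) {z : K}
    (hz : q.eval₂ φ z = 0) : ‖z‖ ≤ 1 := by
  by_contra h
  push Not at h
  rw [Polynomial.eval₂_eq_sum_range, Finset.sum_range_succ,
    show q.coeff q.natDegree = 1 from hq, map_one, one_mul, add_eq_zero_iff_eq_neg] at hz
  have h0 : ‖z ^ q.natDegree‖ = ‖∑ i ∈ Finset.range q.natDegree, φ (q.coeff i) * z ^ i‖ := by
    rw [hz, norm_neg]
  rcases Nat.eq_zero_or_pos q.natDegree with hd | hd
  · simp [hd] at h0
  · obtain ⟨i, hi, hle⟩ := IsUltrametricDist.exists_norm_finsetSum_le_of_nonempty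
      (Finset.nonempty_range_iff.2 hd.ne') fun i => φ (q.coeff i) * z ^ i
    rw [← h0, norm_pow, norm_mul, norm_pow] at hle
    exact absurd (hle.trans (mul_le_of_le_one_left (by positivity) (hφ _)))
      (pow_lt_pow_right₀ h (Finset.mem_range.1 hi)).not_ge

/-- A finite extension of domains embeds compatibly with a given embedding of the base. -/
theorem exists_extension {A B K ι : Type} [CommRing A] [IsDomain A] [CommRing B] [IsDomain B]
    [Fintype ι] [NormedField K] [IsUltrametricDist K] [IsAlgClosed K] (ψ : A →+* B)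
    (hψ : Function.Injective ψ) (gens : ι → B)
    (hgens : ∀ b, ∃ c : ι → A, b = ∑ i, ψ (c i) * gens i) (φ : A →+* K)
    (hφ : Function.Injective φ) (hφ1 : ∀ a, ‖φ a‖ ≤ 1) :
    ∃ y : B →+* K, Function.Injective y ∧ (∀ a, y (ψ a) = φ a) ∧ ∀ b, ‖y b‖ ≤ 1 := by
  let : Algebra A B := ψ.toAlgebra
  let : Algebra A K := φ.toAlgebra
  have : Module.Finite A B := Module.Finite.of_fg_top (R := A) (M := B) <| by
    rw [show (⊤ : Submodule A B) = Submodule.span A (Set.range gens) from
      (Submodule.eq_top_iff'.2 fun b => by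
        obtain ⟨c, rfl⟩ := hgens b
        exact Submodule.sum_mem _ fun i _ =>
          Submodule.smul_mem _ (c i) (Submodule.subset_span ⟨i, rfl⟩)).symm]
    exact Submodule.fg_span (Set.finite_range gens)
  have : Algebra.IsIntegral A B := Algebra.IsIntegral.of_finite A B
  have : Algebra.IsAlgebraic A B := Algebra.IsIntegral.isAlgebraic
  have : Module.IsTorsionFree A B := Module.isTorsionFree_iff_algebraMap_injective.2 hψ
  have : Module.IsTorsionFree A K := Module.isTorsionFree_iff_algebraMap_injective.2 hφ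
  let y : B →ₐ[A] K := IsAlgClosed.lift
  have hy : ∀ a, y (ψ a) = φ a := fun a => y.commutes a
  refine ⟨y.toRingHom, ?_, hy, fun b => ?_⟩
  · rw [RingHom.injective_iff_ker_eq_bot]
    refine Ideal.eq_bot_of_comap_eq_bot (R := A) ?_
    rw [eq_bot_iff]
    intro a ha
    rw [Ideal.mem_comap, RingHom.mem_ker] at ha
    exact (map_eq_zero_iff φ hφ).1 ((hy a).symm.trans ha)
  · obtain ⟨q, hq, hq0⟩ := Algebra.IsIntegral.isIntegral (R := A) b
    refine norm_le_one_of_root φ hφ1 hq ?_
    rw [show φ = y.toRingHom.comp (algebraMap A B) from RingHom.ext fun a => (hy a).symm,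
      ← Polynomial.hom_eval₂, hq0, map_zero]

/-- The maximal ideal of `E0` is generated by `p` and the variables. -/
theorem maximalIdeal_le :
    IsLocalRing.maximalIdeal (E0 p n) ≤ Ideal.span (insert (p : E0 p n)
      (Set.range fun l : Fin (n - 1) => (MvPowerSeries.X l : E0 p n))) := by
  intro f hf
  rw [IsLocalRing.mem_maximalIdeal, mem_nonunits_iff, MvPowerSeries.isUnit_iff_constantCoeff] at hf
  have hc : (p : W p n) ∣ MvPowerSeries.constantCoeff f := by
    rw [← Ideal.mem_span_singleton, ← WittVector.ker_constantCoeff, RingHom.mem_ker]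
    by_contra h
    exact hf (WittVector.isUnit_of_coeff_zero_ne_zero _ h)
  obtain ⟨c, hc⟩ := hc
  have h1 : f - MvPowerSeries.C (MvPowerSeries.constantCoeff f) ∈
      Ideal.span ((fun l => (MvPowerSeries.X l : E0 p n) ^ 1) '' ((Finset.univ : Finset (Fin (n - 1))) : Set _)) := by
    refine mem_span_X_pow 1 _ _ fun d hd => ?_
    have hd0 : d = 0 := Finsupp.ext fun l => by simpa using hd l (Finset.mem_univ l)
    subst hd0
    simp
  rw [show f = f - MvPowerSeries.C (MvPowerSeries.constantCoeff f) +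
    (p : E0 p n) * MvPowerSeries.C c by rw [hc, map_mul, map_natCast]; ring]
  refine Ideal.add_mem _ (Ideal.span_mono ?_ h1)
    (Ideal.mul_mem_right _ _ (Ideal.subset_span (Set.mem_insert _ _)))
  rintro _ ⟨l, -, rfl⟩
  exact Set.mem_insert_of_mem _ ⟨l, (pow_one _).symm⟩

/-- The point attached to a finite injection of a valued domain into `E0 / I`. -/
theorem exists_point_of {I : Ideal (E0 p n)} [I.IsPrime] {A ι : Type} [CommRing A] [IsDomain A]
    [Fintype ι] (ψ : A →+* E0 p n ⧸ I) (hψ : Function.Injective ψ) (mon : ι → E0 p n)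
    (hdec : ∀ f, ∃ c : ι → A, Ideal.Quotient.mk I f = ∑ i, ψ (c i) * Ideal.Quotient.mk I (mon i))
    (g : AbsoluteValue A ℝ) (hg : IsNonarchimedean g) (hg1 : ∀ a, g a ≤ 1)
    (hq : ∃ a, 0 < g a ∧ g a < 1)
    (hgen : ∀ y ∈ insert (p : E0 p n)
        (Set.range fun l : Fin (n - 1) => (MvPowerSeries.X l : E0 p n)),
      ∃ (k : ℕ) (b : E0 p n) (a : A),
        Ideal.Quotient.mk I (y ^ k) = Ideal.Quotient.mk I b * ψ a ∧ g a < 1) :
    ∃ (P : Point p n) (φ : A →+* P.K), RingHom.ker P.x = I ∧ Function.Injective φ ∧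
      (∀ a, ‖φ a‖ = g a) ∧ (∀ a f, ψ a = Ideal.Quotient.mk I f → P.x f = φ a) ∧
      ∀ f, ∃ c : ι → A, P.x f = ∑ i, φ (c i) * P.x (mon i) := by
  classical
  obtain ⟨w, hw, hwg⟩ := exists_abs_fraction (FractionRing A) g hg
  obtain ⟨a₀, ha0, ha1⟩ := hq
  obtain ⟨K, nK, uK, cK, ι₀, hι, hcomp⟩ := exists_field w hw
    ⟨algebraMap A (FractionRing A) a₀, by rwa [hwg], by rwa [hwg]⟩
  let φ : A →+* K := ι₀.comp (algebraMap A (FractionRing A))
  have hφ : Function.Injective φ := ι₀.injective.comp (IsFractionRing.injective A _)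
  have hφn : ∀ a, ‖φ a‖ = g a := fun a => (hι _).trans (hwg a)
  obtain ⟨y, hy, hyψ, hy1⟩ := exists_extension ψ hψ (fun i => Ideal.Quotient.mk I (mon i))
    (fun b => by
      obtain ⟨f, rfl⟩ := Ideal.Quotient.mk_surjective b
      exact hdec f) φ hφ fun a => (hφn a).trans_le (hg1 a)
  let x : E0 p n →+* K := y.comp (Ideal.Quotient.mk I)
  have hx1 : ∀ a, ‖x a‖ ≤ 1 := fun a => hy1 _
  have hdec' : ∀ f, ∃ c : ι → A, x f = ∑ i, φ (c i) * x (mon i) := fun f => by
    obtain ⟨c, hc⟩ := hdec f
    refine ⟨c, ?_⟩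
    show y _ = _
    rw [hc, map_sum]
    simp only [map_mul, hyψ]
    rfl
  let gens : Finset (E0 p n) := insert (p : E0 p n)
    (Finset.univ.image fun l : Fin (n - 1) => (MvPowerSeries.X l : E0 p n))
  have hlt : ∀ z ∈ gens, ‖x z‖ < 1 := by
    intro z hz
    obtain ⟨k, b, a, hk, ha⟩ := hgen z (by
      simpa [gens, eq_comm] using hz)
    by_contra h
    push Not at h
    have : ‖x z‖ ^ k ≤ g a := by
      rw [← norm_pow, ← map_pow]
      show ‖y (Ideal.Quotient.mk I (z ^ k))‖ ≤ _
      rw [hk, map_mul, norm_mul, hyψ, hφn]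
      exact mul_le_of_le_one_left (g.nonneg a) (hy1 _)
    exact absurd ((one_le_pow₀ h).trans this) ha.not_ge
  have contract : ∃ r : ℝ, r < 1 ∧ ∀ a ∈ IsLocalRing.maximalIdeal (E0 p n), ‖x a‖ ≤ r := by
    have hne : gens.Nonempty := Finset.insert_nonempty _ _
    refine ⟨gens.sup' hne fun z => ‖x z‖, (Finset.sup'_lt_iff _).2 hlt, fun a ha => ?_⟩
    have hspan := maximalIdeal_le ha
    clear ha
    induction hspan using Submodule.span_induction with
    | mem z hz => exact Finset.le_sup' (fun z => ‖x z‖) (by simpa [gens, eq_comm] using hz)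
    | zero =>
      rw [map_zero, norm_zero]
      exact (norm_nonneg (x (p : E0 p n))).trans
        (Finset.le_sup' (fun z => ‖x z‖) (Finset.mem_insert_self _ _))
    | add a b _ _ iha ihb =>
      rw [map_add]
      exact (IsUltrametricDist.norm_add_le_max _ _).trans (max_le iha ihb)
    | smul c a _ iha =>
      rw [smul_eq_mul, map_mul, norm_mul]
      exact (mul_le_of_le_one_left (norm_nonneg _) (hx1 c)).trans iha
  let P : Point p n :=
    { K := K
      x := x
      complete_gen := fun s => by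
        obtain ⟨L, h1, h2, h3⟩ := hcomp (s ∪ Finset.univ.image fun i => x (mon i))
        refine ⟨L, h1, fun f => ?_, fun z hz => h3 z (Finset.mem_union_left _ hz)⟩
        obtain ⟨c, hc⟩ := hdec' f
        rw [hc]
        exact sum_mem fun i _ => mul_mem (h2 _)
          (h3 _ (Finset.mem_union_right _ (Finset.mem_image_of_mem _ (Finset.mem_univ i))))
      norm_le := hx1
      contract := contract }
  refine ⟨P, φ, ?_, hφ, hφn, fun a f h => ?_, hdec'⟩
  · show RingHom.ker x = I
    ext f
    rw [RingHom.mem_ker, RingHom.comp_apply, map_eq_zero_iff y hy, eq_zero_iff_mem]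
  · show y (Ideal.Quotient.mk I f) = φ a
    rw [← h, hyψ]

/-- The `p`-degree bound. -/
theorem pdegLE_of {A ι : Type} [CommRing A] [IsDomain A] [Fintype ι] [CharP A p]
    (P : Point p n) (φ : A →+* P.K) (hφ : Function.Injective φ)
    (hrange : ∀ a, φ a ∈ Set.range P.x) (mon : ι → E0 p n)
    (hdec : ∀ f, ∃ c : ι → A, P.x f = ∑ i, φ (c i) * P.x (mon i)) {c : ℕ}
    (e : Fin (p ^ c) → A) (he : ∀ a : A, ∃ z : Fin (p ^ c) → A, a = ∑ i, z i ^ p * e i) :
    ∃ b : Fin (p ^ c) → P.K, (∀ i, b i ∈ Subfield.closure (Set.range P.x)) ∧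
      ∀ y ∈ Subfield.closure (Set.range P.x), ∃ z : Fin (p ^ c) → P.K,
        (∀ i, z i ∈ Subfield.closure (Set.range P.x)) ∧ y = ∑ i, z i ^ p * b i := by
  classical
  let Q := FractionRing A
  let φQ : Q →+* P.K := IsFractionRing.lift hφ
  let : Algebra Q P.K := φQ.toAlgebra
  have : CharP P.K p := charP_of_injective_ringHom hφ p
  have hφQ : ∀ a, algebraMap Q P.K (algebraMap A Q a) = φ a := fun a =>
    IsFractionRing.lift_algebraMap hφ a
  let C : Subfield P.K := Subfield.closure (Set.range P.x)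
  have hQC : ∀ q : Q, algebraMap Q P.K q ∈ C := by
    intro q
    obtain ⟨a, b, -, rfl⟩ := IsFractionRing.div_surjective (A := A) q
    rw [map_div₀, hφQ, hφQ]
    exact div_mem (Subfield.subset_closure (hrange a)) (Subfield.subset_closure (hrange b))
  let S : Subalgebra Q P.K := Algebra.adjoin Q (Set.range P.x)
  have hS : Subalgebra.toSubmodule S ≤
      Submodule.span Q (Set.range fun i => P.x (mon i)) := by
    rw [Algebra.adjoin_eq_span, Submodule.span_le]
    intro z hz
    have hz' : z ∈ MonoidHom.mrange (P.x : E0 p n →* P.K) :=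
      (Submonoid.closure_le.2 (by rintro _ ⟨f, rfl⟩; exact ⟨f, rfl⟩)) hz
    obtain ⟨f, rfl⟩ := hz'
    obtain ⟨c, hc⟩ := hdec f
    show P.x f ∈ _
    rw [hc]
    refine Submodule.sum_mem _ fun i _ => ?_
    rw [← hφQ, ← Algebra.smul_def]
    exact Submodule.smul_mem _ _ (Submodule.subset_span ⟨i, rfl⟩)
  have : Module.Finite Q (Submodule.span Q (Set.range fun i => P.x (mon i))) :=
    Module.Finite.span_of_finite Q (Set.finite_range _)
  have : FiniteDimensional Q S :=
    Submodule.finiteDimensional_of_le hS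
  have hSf : IsField S := isField_of_isIntegral_of_isField' (Field.toIsField Q)
  let L : IntermediateField Q P.K := S.toIntermediateField' hSf
  have hmem : ∀ z, z ∈ L ↔ z ∈ S := fun z => Iff.rfl
  have hLC : ∀ z, z ∈ L → z ∈ C := by
    intro z hz
    have hspan := hS hz
    clear hz
    induction hspan using Submodule.span_induction with
    | mem w hw => obtain ⟨i, rfl⟩ := hw; exact Subfield.subset_closure ⟨_, rfl⟩
    | zero => exact zero_mem _
    | add a b _ _ iha ihb => exact add_mem iha ihb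
    | smul q a _ iha => rw [Algebra.smul_def]; exact mul_mem (hQC q) iha
  have hCL : C ≤ L.toSubfield :=
    Subfield.closure_le.2 fun z hz => (hmem z).2 (Algebra.subset_adjoin hz)
  have : FiniteDimensional Q L := ‹FiniteDimensional Q S›
  have : CharP L p := (RingHom.charP_iff L.val.toRingHom L.val.injective p).2 inferInstance
  obtain ⟨b, hb⟩ := exists_pow_spanning (L := L) p (fun i => algebraMap A Q (e i)) fun q => by
    obtain ⟨a, d, hd, rfl⟩ := IsFractionRing.div_surjective (A := A) q
    have hd' : algebraMap A Q d ≠ 0 :=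
      (map_ne_zero_iff _ (IsFractionRing.injective A Q)).2 (nonZeroDivisors.ne_zero hd)
    obtain ⟨z, hz⟩ := he (a * d ^ (p - 1))
    refine ⟨fun i => algebraMap A Q (z i) / algebraMap A Q d, ?_⟩
    simp only [div_pow, div_mul_eq_mul_div, ← Finset.sum_div, ← map_pow, ← map_mul, ← map_sum,
      ← hz]
    rw [map_pow, map_mul, map_pow, div_eq_div_iff hd' (pow_ne_zero _ hd'), mul_assoc, ← pow_succ,
      Nat.sub_add_cancel (Fact.out : p.Prime).one_le]
  refine ⟨fun i => (b i : P.K), fun i => hLC _ (b i).2, fun y hy => ?_⟩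
  obtain ⟨z, hz⟩ := hb ⟨y, hCL hy⟩
  refine ⟨fun i => (z i : P.K), fun i => hLC _ (z i).2, ?_⟩
  simpa using congrArg Subtype.val hz

end Vale.Agent.P217.PointExists
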