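import Vale.Agent.P217.Point.Exists.Build

/-!
# P217: coordinates transversal to a height ideal
-/

noncomputable section

namespace Vale.Agent.P217.PointExists

open MvPowerSeries

variable {p n : ℕ} [Fact p.Prime]

theorem u_succ (l : Fin (n - 1)) : u p n ((l : ℕ) + 1) = X l := by
  rw [u, dif_pos ⟨by omega, by omega⟩]
  rfl

theorem u_X {i : ℕ} {l : Fin (n - 1)} (h : (l : ℕ) + 1 = i) : u p n i = X l := h ▸ u_succ l

theorem heightIdeal_ne_top {j : ℕ} (hjn : j ≤ n) : heightIdeal p n j ≠ ⊤ := by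
  intro h
  have h1 : heightIdeal p n j ≤ RingHom.ker (residueMap p n) := by
    rw [heightIdeal]
    split_ifs
    · exact bot_le
    · rw [Ideal.span_le]
      rintro y (rfl | ⟨i, hi, rfl⟩)
      · simp [residueMap]
      · rw [Set.mem_Ico] at hi
        rw [SetLike.mem_coe, RingHom.mem_ker, u_X (l := (⟨i - 1, by omega⟩ : Fin (n - 1)))
          (show i - 1 + 1 = i by omega), residueMap, RingHom.comp_apply, constantCoeff_X, map_zero]
  rw [h] at h1
  have := h1 (Submodule.mem_top (x := (1 : E0 p n)))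
  rw [RingHom.mem_ker, map_one] at this
  exact one_ne_zero this

variable {σ : Type}

/-- Coefficientwise reduction of the series in the variables `e`. -/
def restrictMap (e : σ ↪ Fin (n - 1)) : E0 p n →+* MvPowerSeries σ (Coef p n) :=
  (MvPowerSeries.map WittVector.constantCoeff).comp (killCompl e).toRingHom

/-- The reduction modulo `p`. -/
def red : MvPowerSeries σ (W p n) →+* MvPowerSeries σ (Coef p n) :=
  MvPowerSeries.map WittVector.constantCoeff

theorem red_surjective : Function.Surjective (red (p := p) (n := n) (σ := σ)) := fun f => by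
  choose c hc using fun d => (⟨WittVector.teichmuller p (coeff d f), by
    show (WittVector.teichmuller p (coeff d f)).coeff 0 = _
    rw [WittVector.teichmuller_coeff_zero]⟩ : ∃ w : W p n, WittVector.constantCoeff w = coeff d f)
  let g : MvPowerSeries σ (W p n) := c
  exact ⟨g, MvPowerSeries.ext fun d => hc d⟩

theorem restrictMap_rename (e : σ ↪ Fin (n - 1)) (f : MvPowerSeries σ (W p n)) :
    restrictMap e (rename e f) = red f := by
  show MvPowerSeries.map (WittVector.constantCoeff (p := p) (R := Coef p n)) (killCompl e (rename e f)) = _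
  rw [killCompl_rename_app]
  rfl

theorem natCast_eq_C : (p : MvPowerSeries σ (W p n)) = C (p : W p n) :=
  (map_natCast C p).symm

theorem exists_eq_p_mul {f : MvPowerSeries σ (W p n)} (hf : red f = 0) :
    ∃ q, f = C (p : W p n) * q := by
  have h : ∀ d, ∃ c, coeff d f = (p : W p n) * c := fun d => by
    have h1 : coeff d (red f) = 0 := by rw [hf]; simp
    have h2 : coeff d f ∈ RingHom.ker (WittVector.constantCoeff (p := p) (R := Coef p n)) := h1
    rw [WittVector.ker_constantCoeff, Ideal.mem_span_singleton] at h2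
    exact h2
  choose c hc using h
  let q : MvPowerSeries σ (W p n) := c
  refine ⟨q, MvPowerSeries.ext fun d => ?_⟩
  rw [coeff_C_mul]
  exact hc d

theorem heightIdeal_le_comap (e : σ ↪ Fin (n - 1)) {j : ℕ} (hjn : j ≤ n)
    {J : Ideal (MvPowerSeries σ (Coef p n))}
    (hJ : ∀ i : σ, (e i : ℕ) + 1 < j → X i ∈ J) :
    heightIdeal p n j ≤ J.comap (restrictMap e) := by
  rw [heightIdeal]
  split_ifs
  · exact bot_le
  rw [Ideal.span_le]
  rintro y (rfl | ⟨i, hi, rfl⟩)
  · simp only [SetLike.mem_coe, Ideal.mem_comap]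
    have : (p : MvPowerSeries σ (Coef p n)) = 0 := by
      rw [← map_natCast (C : Coef p n →+* MvPowerSeries σ (Coef p n)), CharP.cast_eq_zero, map_zero]
    rw [map_natCast, this]
    exact zero_mem J
  · rw [Set.mem_Ico] at hi
    rw [SetLike.mem_coe, Ideal.mem_comap, u_X (l := (⟨i - 1, by omega⟩ : Fin (n - 1)))
      (show i - 1 + 1 = i by omega)]
    show MvPowerSeries.map (WittVector.constantCoeff (p := p) (R := Coef p n)) (killCompl e (X _)) ∈ J
    by_cases h : (⟨i - 1, by omega⟩ : Fin (n - 1)) ∈ Set.range e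
    · obtain ⟨s, hs⟩ := h
      rw [← hs, killCompl_X, map_X]
      exact hJ s (by rw [hs]; show i - 1 + 1 < j; omega)
    · rw [killCompl_X_eq_zero h, map_zero]
      exact zero_mem J

/-- One exponent for all the variables below `j`. -/
theorem exists_exponent {I : Ideal (E0 p n)} {t : E0 p n} {j : ℕ}
    (hrad : (I ⊔ Ideal.span {t}).radical = heightIdeal p n j) :
    ∃ M : ℕ, 1 ≤ M ∧ ∀ l : Fin (n - 1), (l : ℕ) + 1 < j →
      (X l : E0 p n) ^ M ∈ I ⊔ Ideal.span {t} := by
  have h : ∀ l : Fin (n - 1), ∃ k, (l : ℕ) + 1 < j → (X l : E0 p n) ^ k ∈ I ⊔ Ideal.span {t} := by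
    intro l
    by_cases hl : (l : ℕ) + 1 < j
    · have : (X l : E0 p n) ∈ (I ⊔ Ideal.span {t}).radical := by
        rw [hrad, heightIdeal, if_neg (by omega)]
        exact Ideal.subset_span (Set.mem_insert_of_mem _
          ⟨(l : ℕ) + 1, Set.mem_Ico.2 ⟨by omega, hl⟩, u_succ l⟩)
      obtain ⟨k, hk⟩ := this
      exact ⟨k, fun _ => hk⟩
    · exact ⟨0, fun h => absurd h hl⟩
  choose k hk using h
  refine ⟨Finset.univ.sup k + 1, by omega, fun l hl => ?_⟩
  exact Ideal.pow_mem_of_pow_mem _ (hk l hl)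
    ((Finset.le_sup (Finset.mem_univ l)).trans (Nat.le_succ _))

theorem le_heightIdeal {I : Ideal (E0 p n)} {t : E0 p n} {j : ℕ}
    (hrad : (I ⊔ Ideal.span {t}).radical = heightIdeal p n j) : I ≤ heightIdeal p n j :=
  hrad ▸ le_sup_left.trans Ideal.le_radical

theorem sup_ne_top {I : Ideal (E0 p n)} {t : E0 p n} {j : ℕ} (hjn : j ≤ n)
    (hrad : (I ⊔ Ideal.span {t}).radical = heightIdeal p n j) : I ⊔ Ideal.span {t} ≠ ⊤ := fun h =>
  heightIdeal_ne_top hjn (by rw [← hrad, h, Ideal.radical_top])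

instance : IsDomain (MvPowerSeries σ (Coef p n)) := NoZeroDivisors.to_isDomain _

instance : IsDomain (MvPowerSeries σ (W p n)) := NoZeroDivisors.to_isDomain _

instance : CharP (MvPowerSeries σ (Coef p n)) p :=
  charP_of_injective_ringHom MvPowerSeries.C_injective p

theorem exists_abs_witt : ∃ v : AbsoluteValue (W p n) ℝ,
    IsNonarchimedean v ∧ (∀ a, v a ≤ 1) ∧ v (p : W p n) < 1 := by
  have hb : (1 : NNReal) < 2 := one_lt_two
  refine ⟨(IsDiscreteValuationRing.maximalIdeal (W p n)).intAdicAbv hb,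
    IsDedekindDomain.HeightOneSpectrum.isNonarchimedean_intAdicAbv _ hb,
    fun a => IsDedekindDomain.HeightOneSpectrum.intAdicAbv_le_one _ hb a, ?_⟩
  rw [IsDedekindDomain.HeightOneSpectrum.intAdicAbv_lt_one_iff]
  show (p : W p n) ∈ IsLocalRing.maximalIdeal (W p n)
  rw [IsLocalRing.mem_maximalIdeal, mem_nonunits_iff]
  exact (WittVector.irreducible p).not_isUnit

end Vale.Agent.P217.PointExists
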